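import Vale.Agent.P371.Full.RiccatiTrace
import Vale.Agent.P371.Full.Multiplier
import Vale.Agent.P371.Full.Upper
import Vale.Agent.P371.Full.Sharp

/-!
The sharp one-dimensional Lieb-Thirring constants for `1/2 < γ < 3/2`, scalar and matrix
potentials: `L_γ(m) = L_γ^{(1)}`.
-/

namespace Vale.Agent.Results.P371.LiebThirringSharp

open Vale.Agent.P371.Full

theorem result :
    ∀ γ : ℝ, 1 / 2 < γ → γ < 3 / 2 →
      (∀ m : ℕ, 1 ≤ m → IsGreatest (ltRatios γ m) (oneStateConst γ)) ∧
        IsGreatest (oneStateRatios γ) (oneStateConst γ) := by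
  intro γ h1 h2
  rw [← calibConst_eq h1]
  have hub := upperBound riccatiTrace Multiplier.multiplierExists γ h1 h2
  exact ⟨fun m hm => ⟨calibConst_mem_ltRatios h1 hm, hub m⟩,
    calibConst_mem_oneStateRatios h1, fun r hr => hub 1 r (oneStateRatios_subset γ hr)⟩

end Vale.Agent.Results.P371.LiebThirringSharp
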